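import Crest.Agent.N49.Mh.One

/-!
# Row 49 (helper12): MH₁ without base point, with a fixed number of frequencies
-/

set_option autoImplicit false
open Finset
open scoped BigOperators

namespace Crest.Agent.N49.Mh

open Sa La

theorem round_sub_mem (x y : ℝ) : round (x - y) - round x + round y ∈ Icc (-1 : ℤ) 1 := by
  have a := abs_le.1 (abs_sub_round x); have b := abs_le.1 (abs_sub_round y)
  have c := abs_le.1 (abs_sub_round (x - y))
  have k : (-2 : ℝ) < (round (x - y) - round x + round y : ℤ) ∧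
      ((round (x - y) - round x + round y : ℤ) : ℝ) < 2 := by push_cast; constructor <;> linarith
  have : (-2 : ℤ) < round (x - y) - round x + round y ∧ round (x - y) - round x + round y < 2 := by
    exact_mod_cast k
  rw [mem_Icc]; omega

theorem sum_pad {M : Type*} [AddCommMonoid M] {d R : ℕ} (h : d ≤ R) (f : Fin d → M) :
    ∑ i : Fin R, (if k : i.1 < d then f ⟨i, k⟩ else 0) = ∑ i, f i :=
  (sum_of_injOn (Fin.castLE h) (Fin.castLE_injective h).injOn (by simp) (fun i _ k => dif_neg fun a =>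
    k ⟨⟨i, a⟩, by simp, rfl⟩) fun i _ => by simp).symm

theorem hom_apply {ι H : Type*} [Fintype ι] [DecidableEq ι] [AddCommGroup H] (L : (ι → ℤ) →+ H)
    (u : ι → ℤ) : L u = ∑ o, u o • L (Pi.single o 1) := by
  conv_lhs => rw [← univ_sum_single u, map_sum]
  exact sum_congr rfl fun o _ => by rw [← map_zsmul, ← Pi.single_smul, smul_eq_mul, mul_one]

/-- **MH₁ modulo a subgroup** `W`, no base point, `R` frequencies in `ℤ / (4N)` -/
theorem rep1 {N m R : ℕ} (hN : 0 < N) {A : Finset ℤ} (hA : A ⊆ Ico (0 : ℤ) N)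
    (h : N ≤ 2 ^ m * #A) (hR : 2 ^ 16 * (m + 6) ^ 4 ≤ R) {V : Type*} [AddCommGroup V]
    (W : AddSubgroup V) {φ : ℤ → V} (hφ : F6 A fun a => (φ a : V ⧸ W)) :
    ∃ (r : Fin R → ℕ) (β θ : V) (t : Fin R → V), (∀ i, r i < 4 * N) ∧ ∃ A' ⊆ A,
      N ≤ 2 ^ (2 ^ 22 * (m + 6) ^ 5) * #A' ∧ ∀ a ∈ A',
        φ a - (β + a • θ + ∑ i, round ((r i : ℝ) / (4 * N : ℕ) * a) • t i) ∈ W := by
  obtain ⟨d, hd, g, L, hg, k⟩ := core' hN hA h hφ
  choose r hr e using hg
  obtain ⟨A1, a1, b1, c1⟩ := To.cell hA g (M := 2 * (d + 2))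
    (M' := 2 * (d + 2) * (2 ^ (m + 23) * (m + 6) ^ 4)) (by positivity) (by positivity)
  rw [Fintype.card_fin] at b1
  have n1 : N ≤ 2 ^ (2 ^ 21 * (m + 6) ^ 5) * #A1 := by
    refine h.trans ((Nat.mul_le_mul_left _ b1).trans ?_)
    rw [← mul_assoc]; exact Nat.mul_le_mul_right _ (cost_le hd)
  obtain ⟨y, hy⟩ : A1.Nonempty := card_pos.1 (Nat.pos_of_mul_pos_left (hN.trans_le n1))
  obtain ⟨A2, a2, b2, c2⟩ := To.exists_fibre A1
    (fun a i => round (g i * (a - y : ℤ)) - round (g i * a) + round (g i * y))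
    (B := Fintype.piFinset fun _ => Icc (-1) 1) fun a _ => Fintype.mem_piFinset.2 fun i => by
      push_cast; rw [mul_sub]; exact round_sub_mem _ _
  have n2 : N ≤ 2 ^ (2 ^ 22 * (m + 6) ^ 5) * #A2 := by
    refine n1.trans ((Nat.mul_le_mul_left _ b2).trans ?_)
    rw [← mul_assoc]
    refine Nat.mul_le_mul_right _ ?_
    have : #(Fintype.piFinset fun _ : Fin d => Icc (-1 : ℤ) 1) ≤ 2 ^ (2 * d) := by
      rw [pow_mul]; simpa using Nat.pow_le_pow_left (by norm_num : 3 ≤ 4) d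
    refine (Nat.mul_le_mul_left _ this).trans ?_
    rw [← pow_add]
    refine Nat.pow_le_pow_right two_pos ?_
    rw [pow_succ' (m + 6) 4]; nlinarith [Nat.zero_le ((m + 6) ^ 4)]
  obtain ⟨x, hx⟩ : A2.Nonempty := card_pos.1 (Nat.pos_of_mul_pos_left (hN.trans_le n2))
  choose τ hτ using fun o => QuotientAddGroup.mk_surjective (s := W) (L (Pi.single o 1))
  obtain ⟨β, hβ⟩ := QuotientAddGroup.mk_surjective (s := W) (φ y + L (lift g (x - y) - lift g x))
  refine ⟨fun i => if k : i.1 < d then r ⟨i, k⟩ else 0, β, τ none,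
    fun i => if k : i.1 < d then τ (some ⟨i, k⟩) else 0, fun i => ?_, A2, a2.trans (a1),
    n2, fun a ha => ?_⟩
  · dsimp only; split_ifs
    exacts [hr _, by omega]
  have e1 := (k (a - y) (c1 a (a2 ha) y hy).1 (c1 a (a2 ha) y hy).2).2 ((a, y), y, y)
    (mem_reps.2 (by simp [a1 (a2 ha), a1 hy]))
  have e2 : lift g (a - y) = lift g (x - y) - lift g x + lift g a := by
    ext (_ | i)
    · simp only [lift, Option.elim, Pi.add_apply, Pi.sub_apply]; omega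
    · have := congrFun (c2 a ha x hx) i
      simp only [lift, Option.elim, Pi.add_apply, Pi.sub_apply] at this ⊢
      omega
  have e3 : ∑ i : Fin R, round (((if k : i.1 < d then r ⟨i, k⟩ else 0 : ℕ) : ℝ) / (4 * N : ℕ) * a) •
      (if k : i.1 < d then τ (some ⟨i, k⟩) else 0) = ∑ i, round (g i * a) • τ (some i) := by
    rw [← sum_pad (hd.trans hR)]
    refine sum_congr rfl fun i _ => ?_
    split_ifs
    exacts [by rw [e], smul_zero _]
  rw [← QuotientAddGroup.eq_iff_sub_mem, e3]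
  rw [e2, map_add, hom_apply L (lift g a), Fintype.sum_option] at e1
  simp only [← hτ, val, sub_add_cancel] at e1
  simp only [QuotientAddGroup.mk_add, QuotientAddGroup.mk_zsmul, QuotientAddGroup.mk_sum, hβ]
  rw [eq_add_of_sub_eq e1]
  simp only [lift, Option.elim]; abel

/-- many fibres are dense -/
theorem card_good {X : Type*} (s : Finset X) (a : X → ℕ) {N m : ℕ} (hN : 0 < N)
    (ha : ∀ p ∈ s, a p ≤ N) (h : #s * N ≤ 2 ^ m * ∑ p ∈ s, a p) :
    #s ≤ 2 ^ (m + 1) * #{p ∈ s | N ≤ 2 ^ (m + 1) * a p} := by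
  have e := sum_filter_add_sum_filter_not s (fun p => N ≤ 2 ^ (m + 1) * a p) a
  have a1 := sum_le_card_nsmul {p ∈ s | N ≤ 2 ^ (m + 1) * a p} a N fun p k => ha p (mem_filter.1 k).1
  have a2 := sum_le_card_nsmul {p ∈ s | ¬N ≤ 2 ^ (m + 1) * a p} (fun p => 2 ^ (m + 1) * a p) N
    fun p k => (not_le.1 (mem_filter.1 k).2).le
  have a3 := Nat.mul_le_mul_right N (card_filter_le s fun p => ¬N ≤ 2 ^ (m + 1) * a p)
  rw [← mul_sum] at a2
  have a4 := Nat.mul_le_mul_left (2 ^ (m + 1)) a1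
  refine Nat.le_of_mul_le_mul_right ?_ hN
  rw [← e] at h
  simp only [smul_eq_mul, pow_succ] at *
  nlinarith

/-- **fibrewise MH₁** -/
theorem repL {N m R : ℕ} (hN : 0 < N) {X : Type*} (s : Finset X) (A : X → Finset ℤ)
    (hA : ∀ p ∈ s, A p ⊆ Ico (0 : ℤ) N) (h : #s * N ≤ 2 ^ m * ∑ p ∈ s, #(A p))
    (hR : 2 ^ 16 * (m + 7) ^ 4 ≤ R) {V : Type*} [AddCommGroup V] (W : AddSubgroup V)
    {φ : X → ℤ → V} (hφ : ∀ p ∈ s, F6 (A p) fun a => (φ p a : V ⧸ W)) :
    ∃ (r : X → Fin R → ℕ) (β θ : X → V) (t : X → Fin R → V) (A' : X → Finset ℤ),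
      (∀ p i, r p i < 4 * N) ∧ (∀ p, A' p ⊆ A p) ∧
      #s * N ≤ 2 ^ (2 ^ 23 * (m + 7) ^ 5) * ∑ p ∈ s, #(A' p) ∧ ∀ p ∈ s, ∀ a ∈ A' p,
        φ p a - (β p + a • θ p + ∑ i, round ((r p i : ℝ) / (4 * N : ℕ) * a) • t p i) ∈ W := by
  have k : ∀ p, ∃ (r : Fin R → ℕ) (β θ : V) (t : Fin R → V) (A' : Finset ℤ), (∀ i, r i < 4 * N) ∧
      A' ⊆ A p ∧ (p ∈ s → N ≤ 2 ^ (m + 1) * #(A p) → N ≤ 2 ^ (2 ^ 22 * (m + 7) ^ 5) * #A') ∧
      ∀ a ∈ A', φ p a - (β + a • θ + ∑ i, round ((r i : ℝ) / (4 * N : ℕ) * a) • t i) ∈ W := by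
    intro p
    by_cases c : p ∈ s ∧ N ≤ 2 ^ (m + 1) * #(A p)
    · obtain ⟨r, β, θ, t, a, A', b, d, e⟩ := rep1 hN (hA p c.1) c.2 hR W (hφ p c.1)
      exact ⟨r, β, θ, t, A', a, b, fun _ _ => d, e⟩
    · exact ⟨0, 0, 0, 0, ∅, fun _ => by simpa using hN, empty_subset _,
        fun a b => (c ⟨a, b⟩).elim, by simp⟩
  choose r β θ t A' a b c d using k
  refine ⟨r, β, θ, t, A', a, b, ?_, fun p _ => d p⟩
  have g := card_good s (fun p => #(A p)) hN (fun p k => (card_le_card (hA p k)).trans_eq (by simp)) h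
  have := card_nsmul_le_sum {p ∈ s | N ≤ 2 ^ (m + 1) * #(A p)}
    (fun p => 2 ^ (2 ^ 22 * (m + 7) ^ 5) * #(A' p)) N fun p k =>
      c p (mem_filter.1 k).1 (mem_filter.1 k).2
  rw [← mul_sum, smul_eq_mul] at this
  refine (Nat.mul_le_mul_right N g).trans ?_
  rw [mul_assoc]
  refine (Nat.mul_le_mul_left _ (this.trans (Nat.mul_le_mul_left _
    (sum_le_sum_of_subset (filter_subset _ s))))).trans ?_
  rw [← mul_assoc, ← pow_add]
  refine Nat.mul_le_mul_right _ (Nat.pow_le_pow_right two_pos ?_)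
  have : m + 7 ≤ (m + 7) ^ 5 := Nat.le_self_pow (by norm_num) _
  omega

end Crest.Agent.N49.Mh
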