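import Crest.Agent.N49.Sa.Bog
import Crest.Agent.N49.To.Cell
import Crest.Agent.N49.La.Mv

/-!
# Row 49 (helper12): Freiman homomorphisms on dense sets of integers are bracket linear
-/

set_option autoImplicit false
open Finset
open scoped BigOperators

namespace Crest.Agent.N49.Mh

open Sa La

/-- `b ↦ (b, round (g i * b))` -/
noncomputable def lift {ι : Type*} (g : ι → ℝ) (b : ℤ) : Option ι → ℤ :=
  fun o => o.elim b fun i => round (g i * b)

/-- Freiman `6`-homomorphisms -/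
def F6 {G H : Type*} [AddCommGroup G] [AddCommGroup H] (A : Finset G) (φ : G → H) : Prop :=
  ∀ u v : Fin 6 → G, (∀ i, u i ∈ A) → (∀ i, v i ∈ A) → ∑ i, u i = ∑ i, v i →
    ∑ i, φ (u i) = ∑ i, φ (v i)

theorem F6.of_hom {G H : Type*} [AddCommGroup G] [AddCommGroup H] {A : Finset G} {φ : G → H}
    (h : IsAddFreimanHom 6 (A : Set G) Set.univ φ) : F6 A φ := fun u v hu hv e => by
  have := h.map_sum_eq_map_sum (s := univ.val.map u) (t := univ.val.map v)
    (fun x k => by obtain ⟨i, -, rfl⟩ := Multiset.mem_map.1 k; exact hu i)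
    (fun x k => by obtain ⟨i, -, rfl⟩ := Multiset.mem_map.1 k; exact hv i) (by simp) (by simp) e
  rwa [Multiset.map_map, Multiset.map_map] at this

/-- the value of a quadruple -/
def val {G H : Type*} [AddCommGroup H] (φ : G → H) (p : (G × G) × G × G) : H :=
  φ p.1.1 - φ p.1.2 + φ p.2.1 - φ p.2.2

theorem F6.val_add {G H : Type*} [AddCommGroup G] [AddCommGroup H] [DecidableEq G] {A : Finset G}
    {φ : G → H} (h : F6 A φ) {b c : G} {p q r : (G × G) × G × G} (hp : p ∈ reps A b)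
    (hq : q ∈ reps A c) (hr : r ∈ reps A (b + c)) : val φ r = val φ p + val φ q := by
  obtain ⟨⟨p1, p2, p3, p4⟩, rfl⟩ := mem_reps.1 hp
  obtain ⟨⟨q1, q2, q3, q4⟩, rfl⟩ := mem_reps.1 hq
  obtain ⟨⟨r1, r2, r3, r4⟩, e⟩ := mem_reps.1 hr
  have := h ![r.1.1, r.2.1, p.1.2, p.2.2, q.1.2, q.2.2] ![r.1.2, r.2.2, p.1.1, p.2.1, q.1.1, q.2.1]
    (by simp [Fin.forall_fin_succ, *]) (by simp [Fin.forall_fin_succ, *])
    (by simp only [Fin.sum_univ_succ]; simp; linear_combination (norm := abel1) e)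
  simp only [Fin.sum_univ_succ] at this
  simp at this
  simp only [val]
  linear_combination (norm := abel1) this

theorem F6.val_eq {G H : Type*} [AddCommGroup G] [AddCommGroup H] [DecidableEq G] {A : Finset G}
    {φ : G → H} (h : F6 A φ) {b : G} {p r : (G × G) × G × G} (hp : p ∈ reps A b)
    (hr : r ∈ reps A b) : val φ r = val φ p := by
  have a := (mem_reps.1 hp).1.1
  have := h.val_add (q := ((p.1.1, p.1.1), p.1.1, p.1.1)) (c := 0) hp (mem_reps.2 (by simp [a]))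
    (by rwa [add_zero])
  simpa [val] using this

/-- **MH₁, core form** -/
theorem core' {N m : ℕ} (hN : 0 < N) {A : Finset ℤ} (hA : A ⊆ Ico (0 : ℤ) N) (h : N ≤ 2 ^ m * #A)
    {H : Type*} [AddCommGroup H] {φ : ℤ → H} (hφ : F6 A φ) :
    ∃ d ≤ 2 ^ 16 * (m + 6) ^ 4, ∃ (g : Fin d → ℝ) (L : (Option (Fin d) → ℤ) →+ H),
      (∀ i, ∃ r < 4 * N, g i = (r : ℕ) / (4 * N : ℕ)) ∧ ∀ b : ℤ,
      |(b : ℝ)| ≤ N / (2 * (d + 2) : ℕ) →
      (∀ i, |g i * b - round (g i * b)| ≤ 1 / (2 * (d + 2) * (2 ^ (m + 23) * (m + 6) ^ 4) : ℕ)) →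
      #A ^ 3 ≤ 2 ^ (m + 6) * #(reps A b) ∧ ∀ p ∈ reps A b, val φ p = L (lift g b) := by
  classical
  obtain ⟨Γ, h1, h0, h2⟩ := bog_int' hN hA h
  set K : ℝ := 2 ^ (m + 23) * (m + 6) ^ 4 with hK
  have K0 : 0 < K := by positivity
  have n0 : (0 : ℝ) < N := by exact_mod_cast hN
  have a0 : 0 < #A := Nat.pos_of_mul_pos_left (hN.trans_le h)
  let g : Fin #Γ → ℝ := fun i => Γ.equivFin.symm i
  let T : (Option (Fin #Γ) → ℝ) →L[ℝ] Option (Fin #Γ) → ℝ := ContinuousLinearMap.pi fun o =>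
    o.elim ((2 / N : ℝ) • ContinuousLinearMap.proj none) fun i =>
      (2 * K) • (g i • ContinuousLinearMap.proj none - ContinuousLinearMap.proj (some i))
  have T0 : ∀ x, T x none = 2 / N * x none := fun _ => rfl
  have T1 : ∀ x i, T x (some i) = 2 * K * (g i * x none - x (some i)) := fun _ _ => rfl
  have hT : Function.Injective T := (injective_iff_map_eq_zero T).2 fun x e => by
    have e0 : x none = 0 := by
      have := T0 x; rw [e] at this
      exact (mul_eq_zero.1 this.symm).resolve_left (by positivity)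
    ext (_ | i)
    · exact e0
    · have := T1 x i; rw [e, e0] at this
      simpa using (mul_eq_zero.1 this.symm).resolve_left (by positivity)
  have key : ∀ u, ‖T (ci u)‖ ≤ 2 → #A ^ 3 ≤ 2 ^ (m + 6) * #(reps A (u none)) := fun u hu => by
    refine h2 _ ?_ fun x hx => ?_
    · have := (norm_le_pi_norm _ none).trans hu
      rw [T0, Real.norm_eq_abs, abs_mul, abs_of_pos (by positivity), div_mul_eq_mul_div,
        div_le_iff₀ n0, ci_apply] at this
      have : |((u none : ℤ) : ℝ)| ≤ N := by linarith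
      exact_mod_cast this
    · have := (norm_le_pi_norm _ (some (Γ.equivFin ⟨x, hx⟩))).trans hu
      rw [T1, Real.norm_eq_abs, abs_mul, abs_of_pos (by positivity), ci_apply, ci_apply] at this
      simp only [g, Equiv.symm_apply_apply] at this
      refine (round_le _ (u (some (Γ.equivFin ⟨x, hx⟩)))).trans ?_
      rw [le_div_iff₀ K0]; linarith
  have ne : ∀ u, ‖T (ci u)‖ ≤ 2 → (reps A (u none)).Nonempty := fun u hu =>
    card_pos.1 (Nat.pos_of_mul_pos_left ((pow_pos a0 3).trans_le (key u hu)))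
  let ψ : ℤ → H := fun b => if k : (reps A b).Nonempty then val φ k.choose else 0
  have hψ : ∀ b, ∀ p ∈ reps A b, ψ b = val φ p := fun b p hp => by
    have k : (reps A b).Nonempty := ⟨p, hp⟩
    simp only [ψ, dif_pos k]
    exact hφ.val_eq hp k.choose_spec
  obtain ⟨L, hL⟩ := loc T hT (fun u => ψ (u none)) fun u v hu hv => by
    obtain ⟨p, hp⟩ := ne u (by linarith)
    obtain ⟨q, hq⟩ := ne v (by linarith)
    obtain ⟨r, hr⟩ := ne (u + v) (by
      rw [map_add, map_add]; exact (norm_add_le _ _).trans (by linarith))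
    rw [hψ _ _ hp, hψ _ _ hq, hψ _ _ hr]
    exact hφ.val_add hp hq hr
  refine ⟨#Γ, h1, g, L, fun i => h0 _ (Γ.equivFin.symm i).2, fun b hb hg => ?_⟩
  have d0 : (0 : ℝ) < #Γ + 2 := by positivity
  have k : ‖T (ci (lift g b))‖ ≤ 1 / (#Γ + 2) := by
    refine (pi_norm_le_iff_of_nonneg (by positivity)).2 fun o => ?_
    rcases o with _ | i
    · rw [T0, Real.norm_eq_abs, abs_mul, abs_of_pos (by positivity)]
      refine (mul_le_mul_of_nonneg_left hb (by positivity)).trans_eq ?_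
      push_cast; field_simp
    · rw [T1, Real.norm_eq_abs, abs_mul, abs_of_pos (by positivity)]
      refine (mul_le_mul_of_nonneg_left (hg i) (by positivity)).trans_eq ?_
      rw [hK]; push_cast; field_simp
  refine ⟨key (lift g b) (k.trans ?_), fun p hp => ?_⟩
  · rw [div_le_iff₀ d0]; have : (0 : ℝ) ≤ #Γ := by positivity
    linarith
  · rw [hL _ (k.trans_eq (by simp [add_assoc, one_add_one_eq_two]))]
    exact (hψ _ _ hp).symm

theorem core {N m : ℕ} (hN : 0 < N) {A : Finset ℤ} (hA : A ⊆ Ico (0 : ℤ) N) (h : N ≤ 2 ^ m * #A)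
    {H : Type*} [AddCommGroup H] {φ : ℤ → H} (hφ : F6 A φ) :
    ∃ d ≤ 2 ^ 16 * (m + 6) ^ 4, ∃ (g : Fin d → ℝ) (L : (Option (Fin d) → ℤ) →+ H), ∀ b : ℤ,
      |(b : ℝ)| ≤ N / (2 * (d + 2) : ℕ) →
      (∀ i, |g i * b - round (g i * b)| ≤ 1 / (2 * (d + 2) * (2 ^ (m + 23) * (m + 6) ^ 4) : ℕ)) →
      #A ^ 3 ≤ 2 ^ (m + 6) * #(reps A b) ∧ ∀ p ∈ reps A b, val φ p = L (lift g b) :=
  let ⟨d, a, g, L, _, b⟩ := core' hN hA h hφ
  ⟨d, a, g, L, b⟩

theorem cost_le {m d : ℕ} (hd : d ≤ 2 ^ 16 * (m + 6) ^ 4) :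
    2 ^ m * (2 * (d + 2) * (2 * (d + 2) * (2 ^ (m + 23) * (m + 6) ^ 4)) ^ d) ≤
      2 ^ (2 ^ 21 * (m + 6) ^ 5) := by
  have a : m + 6 ≤ 2 ^ (m + 6) := Nat.lt_two_pow_self.le
  have a4 : (m + 6) ^ 4 ≤ 2 ^ (4 * (m + 6)) := by
    rw [mul_comm, pow_mul]; exact Nat.pow_le_pow_left a 4
  have p : 1 ≤ (m + 6) ^ 4 := Nat.one_le_pow _ _ (by omega)
  have b : 2 * (d + 2) ≤ 2 ^ (18 + 4 * (m + 6)) := by rw [pow_add]; omega
  have c : 2 * (d + 2) * (2 ^ (m + 23) * (m + 6) ^ 4) ≤ 2 ^ (15 * (m + 6)) :=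
    (Nat.mul_le_mul b (Nat.mul_le_mul_left _ a4)).trans (by
      rw [← pow_add, ← pow_add]; exact Nat.pow_le_pow_right two_pos (by omega))
  refine (Nat.mul_le_mul_left _ (Nat.mul_le_mul b (Nat.pow_le_pow_left c d))).trans ?_
  rw [← pow_mul, ← pow_add, ← pow_add]
  refine Nat.pow_le_pow_right two_pos ?_
  have := Nat.mul_le_mul_left (15 * (m + 6)) hd
  have := Nat.mul_le_mul_left (m + 6) p
  rw [pow_succ' (m + 6) 4]
  nlinarith

/-- **MH₁** -/
theorem mh1 {N m : ℕ} (hN : 0 < N) {A : Finset ℤ} (hA : A ⊆ Ico (0 : ℤ) N) (h : N ≤ 2 ^ m * #A)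
    {H : Type*} [AddCommGroup H] {φ : ℤ → H} (hφ : F6 A φ) :
    ∃ d ≤ 2 ^ 16 * (m + 6) ^ 4, ∃ (g : Fin d → ℝ) (L : (Option (Fin d) → ℤ) →+ H), ∃ A' ⊆ A,
      N ≤ 2 ^ (2 ^ 21 * (m + 6) ^ 5) * #A' ∧ ∀ a ∈ A', ∀ a₀ ∈ A',
        φ a = φ a₀ + L (lift g (a - a₀)) ∧ ∀ i, |g i * (a - a₀ : ℤ) - round (g i * (a - a₀ : ℤ))| ≤
          1 / 2 ^ (m + 23) := by
  obtain ⟨d, hd, g, L, k⟩ := core hN hA h hφ
  obtain ⟨A', a, b, c⟩ := To.cell hA g (M := 2 * (d + 2))
    (M' := 2 * (d + 2) * (2 ^ (m + 23) * (m + 6) ^ 4)) (by positivity) (by positivity)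
  rw [Fintype.card_fin] at b
  refine ⟨d, hd, g, L, A', a, ?_, fun x hx y hy => ⟨?_, fun i => ((c x hx y hy).2 i).trans ?_⟩⟩
  · refine h.trans ((Nat.mul_le_mul_left _ b).trans ?_)
    rw [← mul_assoc]; exact Nat.mul_le_mul_right _ (cost_le hd)
  · have := (k (x - y) (c x hx y hy).1 (c x hx y hy).2).2 ((x, y), y, y)
      (mem_reps.2 (by simp [a hx, a hy]))
    rw [← this]; simp [val]
  · refine one_div_le_one_div_of_le (by positivity) ?_
    have : 2 ^ (m + 23) ≤ 2 * (d + 2) * (2 ^ (m + 23) * (m + 6) ^ 4) :=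
      Nat.le_mul_of_pos_right _ (by positivity) |>.trans (Nat.le_mul_of_pos_left _ (by positivity))
    exact_mod_cast this

end Crest.Agent.N49.Mh
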